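import Vale.Agent.P202K.KDefs2
import Vale.Agent.P202C.Wrap

/-!
P202K, module KW (helper83): the wrapper of P202C/Wrap.lean without F-finiteness.
-/

set_option autoImplicit false

namespace Vale.Agent.P202K

open IsLocalRing Polynomial Vale.Agent.P202 Vale.Agent.P202C

universe u v

attribute [local instance] Polynomial.algebra

theorem KW_core_RZ (p : ℕ) [Fact p.Prime] (HC : CoreG.{u, v} p)
    (R : Type u) (S : Type v) [CommRing R] [IsLocalRing R] [IsNoetherianRing R]
    [CommRing S] [IsLocalRing S] [IsNoetherianRing S] [Algebra R S] [Module.Flat R S]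
    [IsLocalHom (algebraMap R S)] [CharP R p]
    (d : ℕ) (hR : ringKrullDim R = d) (hS : ringKrullDim S = d)
    (eR eS : ℝ) (hmR : HasMult R eR) (hmS : HasMult S eS) : eR ≤ eS := by
  let f : R[X] →+* S[X] := Polynomial.mapRingHom (algebraMap R S)
  have hf : f.Flat := by
    have h1 : Module.Flat R[X] S[X] :=
      Module.Flat.isBaseChange R R[X] S S[X]
        (Algebra.IsPushout.out (R := R) (S := R[X]) (R' := S) (S' := S[X]))
    have h2 : f = algebraMap R[X] S[X] := (Polynomial.algebraMap_def R S).symm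
    rw [h2]
    exact RingHom.flat_algebraMap_iff.mpr h1
  have hcomap : pZ R = (pZ S).comap f := by
    ext g
    rw [Ideal.mem_comap, Ideal.mem_map_C_iff, Ideal.mem_map_C_iff]
    refine forall_congr' fun i => ?_
    rw [coe_mapRingHom, coeff_map, mem_comap_iff]
  let φ : RZ R →+* RZ S := Localization.localRingHom (pZ R) (pZ S) f hcomap
  have hφ : φ.Flat := RingHom.Flat.localRingHom hf _ _ hcomap
  let _ : Algebra (RZ R) (RZ S) := φ.toAlgebra
  have hflat : Module.Flat (RZ R) (RZ S) := hφ
  have hloc : IsLocalHom (algebraMap (RZ R) (RZ S)) :=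
    Localization.isLocalHom_localRingHom (pZ R) (pZ S) f hcomap
  have i1 : IsNoetherianRing (RZ R) := RZ_noeth R
  have i4 : Infinite (ResidueField (RZ R)) := RZ_inf R
  have j1 : IsNoetherianRing (RZ S) := RZ_noeth S
  have hcp : CharP (RZ R) p := RZ_charP R p
  have hart : IsArtinianRing (RZ S ⧸ (maximalIdeal (RZ R)).map (algebraMap (RZ R) (RZ S))) :=
    artin_of_dim_eq d (by rw [RZ_dim, hR]) (by rw [RZ_dim, RZ_dim, hR, hS])
  exact HC (RZ R) (RZ S) i4 hart eR eS (RZ_mult R eR hmR) (RZ_mult S eS hmS)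

/-- KW: the wrapper (P202C/Wrap.lean `core_RZ`, `wrapF`, without F-finiteness). -/
theorem wrapK_proved (p : ℕ) [Fact p.Prime] (HC : CoreG.{u, v} p)
    (R : Type u) (S : Type v) [CommRing R] [IsLocalRing R] [IsNoetherianRing R]
    [CommRing S] [IsLocalRing S] [IsNoetherianRing S] [Algebra R S] [Module.Flat R S]
    [IsLocalHom (algebraMap R S)] [CharP R p]
    (eR eS : ℝ) (hmR : HasMult R eR) (hmS : HasMult S eS) : eR ≤ eS := by
  obtain ⟨d, hd, -⟩ := id hmR
  have hover : (maximalIdeal S).LiesOver (maximalIdeal R) := liesOver_max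
  have h1 := Ideal.height_eq_height_add_of_liesOver_of_hasGoingDown (maximalIdeal R)
    (maximalIdeal S)
  obtain ⟨n, hn⟩ := exists_dim_nat (R := S)
  have h2 : (maximalIdeal R).height = (d : ℕ∞) := by
    have := IsLocalRing.maximalIdeal_height_eq_ringKrullDim (R := R)
    rw [hd] at this
    exact_mod_cast this
  have h3 : (maximalIdeal S).height = (n : ℕ∞) := by
    have := IsLocalRing.maximalIdeal_height_eq_ringKrullDim (R := S)
    rw [hn] at this
    exact_mod_cast this
  have hle : d ≤ n := by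
    rw [h2, h3] at h1
    have : (d : ℕ∞) ≤ n := by
      rw [h1]
      exact le_self_add
    exact_mod_cast this
  obtain ⟨f, rfl⟩ := Nat.exists_eq_add_of_le hle
  obtain ⟨e, heS, hUX⟩ := hasMult_UX (A := S) (d + f) hn
  obtain ⟨T, _, _, _, _, _, _, hT, hTX⟩ := exists_art d hd e f S hn hUX
  obtain ⟨e', heT, -⟩ := hasMult_UX (A := T) d hT
  have h6 : (e' : ℝ) ≤ e := hasMult_le d hT heT hTX
  have h7 : eR ≤ (e' : ℝ) := KW_core_RZ p HC R T d hd hT eR e' hmR heT
  have h8 : eS = e := Vale.Agent.P202C.hasMult_unique hmS heS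
  rw [h8]
  exact h7.trans h6

end Vale.Agent.P202K
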